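import Vale.Agent.N246S.Fam

/-!
P246: two families of groups without the D(2) property, with D(2) complexes that are homotopy
retracts of finite two-complexes;
one two-sphere makes them two-dimensional and cannot be cancelled, and their
Euler characteristic is smaller than that of all finite two-complexes with the same group.
-/

open Topology Set Subgroup

namespace Vale.Agent.Results.P246.A0Cancellation

open Vale.Agent.P246.T Vale.Agent.P246.Dis.H52 Vale.Agent.P246W26 Vale.Agent.N246
  Vale.Agent.N246S

theorem result :
    (∀ (X : Type) [TopologicalSpace X] [T2Space X] [CWComplex (univ : Set X)]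
        [CWComplex.Finite (univ : Set X)] [ConnectedSpace X], Dominated X → D2Cell X) ∧
    (∀ (n m d : ℕ) (r : Fin m → FreeGroup (Fin n)), n = m + d →
      Nonempty (Abelianization (PresentedGroup (range r)) ≃* Multiplicative (Fin d → ℤ)) →
      Exotic (Monoid.Coprod WallGroup (PresentedGroup (range r))) ∧
        SwanGap (Monoid.Coprod WallGroup (PresentedGroup (range r)))) ∧
    ∀ (n m d : ℕ) (r : Fin m → FreeGroup (Fin n)) (s : FreeGroup (Fin n))
      (T : Set (FreeGroup (Fin n))), T = insert s (range r) → n = m + d →
      s ∈ normalClosure (range r) ⊔ ⁅normalClosure T, normalClosure T⁆ →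
      Nonempty (Abelianization (PresentedGroup T) ≃* Multiplicative (Fin d → ℤ)) →
      VisibleTorsion (PresentedGroup T) →
      Exotic (PresentedGroup T) ∧ SwanGap (PresentedGroup T) := by
  refine ⟨dom_cell, fun _ _ _ r hd ⟨e⟩ => freeProd r hd e, ?_⟩
  rintro n m d r s _ rfl hd hs ⟨e⟩ h
  exact presented r s hd hs e h

end Vale.Agent.Results.P246.A0Cancellation
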